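import Vale.Agent.P352X.EB.DEC.A
import Mathlib.Data.Set.Finite.List

/-!
# P352X, row EB.dec: the dyadic decomposition
-/

set_option linter.all false

open MeasureTheory Filter Topology Metric Set
open scoped SchwartzMap

namespace Vale.Agent.P352X.EB.Dec

open Vale.Agent.P352.GF ST LineDeriv

noncomputable section

variable {L : Set (Sch →L[ℂ] ℂ)} {u w : Sch} {C C' h η η' c : ℝ} {K : Set V}
  {T T' : Module.End ℂ Sch}

/-- iterated derivatives -/
def dl (α : List Ix) (f : Sch) : Sch := α.foldr (fun m g => lineDerivOp (bas m 1) g) f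

lemma dl_cons (m : Ix) (α : List Ix) (f : Sch) : dl (m :: α) f = d m (dl α f) := rfl

lemma dl_snoc (m : Ix) (α : List Ix) (f : Sch) : dl (α ++ [m]) f = dl α (d m f) := by
  simp only [dl, List.foldr_append]; rfl

lemma dl_sub (α : List Ix) (f g : Sch) : dl α (f - g) = dl α f - dl α g := by
  induction α with
  | nil => rfl
  | cons m α ih => rw [dl_cons, ih, map_sub, dl_cons, dl_cons]

lemma dl_comm (hT : ∀ m, Commute (d m) T) (α : List Ix) (f : Sch) : dl α (T f) = T (dl α f) := by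
  induction α with
  | nil => rfl
  | cons m α ih => rw [dl_cons, ih]; exact LinearMap.congr_fun (hT m).eq _

/-- the average over a cube -/
def Q (h : ℝ) : Module.End ℂ Sch :=
  A (h • bas 0 1) * (A (h • bas 1 1) * (A (h • bas 2 1) * A (h • bas 3 1)))

lemma cQ (hT : ∀ v, Commute T (A v)) (h : ℝ) : Commute T (Q h) :=
  (hT _).mul_right ((hT _).mul_right ((hT _).mul_right (hT _)))

lemma cE (hT : ∀ v, Commute T (A v)) (h : ℝ) (n M : ℕ) : Commute T ((1 - Q h ^ n) ^ M) :=
  ((Commute.one_right T).sub_right ((cQ hT h).pow_right n)).pow_right M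

lemma B.Q (hu : B L u C) (h : ℝ) : B L (Q h u) C := (((hu.A _).A _).A _).A _

lemma B.P (hu : B L u C) (h : ℝ) (n : ℕ) : B L ((Dec.Q h ^ n) u) C := by
  induction n with
  | zero => exact hu
  | succ n ih => rw [pow_succ']; exact ih.Q h

lemma B.dA' {m : Ix} (hu : B L (d m u) C) (v : V) : B L (d m (Dec.A v u)) C := by
  rw [show d m (Dec.A v u) = Dec.A v (d m u) from LinearMap.congr_fun (cdA m v).eq u]
  exact hu.A v

lemma B.dQ (hu : B L u C) (m : Ix) (h0 : 0 < h) : B L (d m (Dec.Q h u)) (2 / h * C) := by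
  fin_cases m
  · exact (((hu.A _).A _).A _).dA 0 h0
  · exact (((hu.A _).A _).dA 1 h0).dA' _
  · exact (((hu.A _).dA 2 h0).dA' _).dA' _
  · exact (((hu.dA 3 h0).dA' _).dA' _).dA' _

lemma B.dP (hu : B L u C) (h0 : 0 < h) (α : List Ix) :
    ∀ n, α.length ≤ n → B L (dl α ((Dec.Q h ^ n) u)) ((2 / h) ^ α.length * C) := by
  induction α with
  | nil => intro n _; rw [List.length_nil, pow_zero, one_mul]; exact hu.P h n
  | cons m α ih =>
    rintro (_ | n) hn
    · simp at hn
    rw [pow_succ', Module.End.mul_apply, dl_cons, dl_comm fun m => cQ (cdA m) h, List.length_cons,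
      pow_succ', mul_assoc]
    exact (ih n (by simpa using hn)).dQ m h0

variable (L) in
/-- `1 - T` is small on smooth functions -/
def Sm (T : Module.End ℂ Sch) (η : ℝ) : Prop :=
  ∀ u C, (∀ m, B L (d m u) C) → B L (u - T u) (η * C)

lemma Sm.mul (hT : ∀ u C, B L u C → B L (T u) C) (h1 : Sm L T η) (h2 : Sm L T' η') :
    Sm L (T * T') (η + η') := fun u C hu => by
  have e : u - (T * T') u = u - T u + T (u - T' u) := by
    rw [map_sub, Module.End.mul_apply]; abel
  rw [e, add_mul]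
  exact (h1 u C hu).add (hT _ _ (h2 u C hu))

lemma smQ (h0 : 0 ≤ h) : Sm L (Q h) (4 * h) := by
  have h1 : ∀ m, Sm L (A (h • bas m 1)) h := fun m u C hu => (hu m).sA h0
  have h2 : ∀ v u C, B L u C → B L (A v u) C := fun v _ _ hu => hu.A v
  rw [show 4 * h = h + (h + (h + h)) by ring]
  exact (h1 0).mul (h2 _) ((h1 1).mul (h2 _) ((h1 2).mul (h2 _) (h1 3)))

lemma smP (h0 : 0 ≤ h) (n : ℕ) : Sm L (Q h ^ n) (n * (4 * h)) := by
  induction n with
  | zero => intro u C _ Λ _ y; simp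
  | succ n ih =>
    rw [pow_succ, Nat.cast_succ, add_mul, one_mul]
    exact ih.mul (fun _ _ hu => hu.P h n) (smQ h0)

lemma B.E (h0 : 0 ≤ h) (n M : ℕ) : ∀ u : Sch, (∀ β : List Ix, β.length = M → B L (dl β u) C) →
    B L (((1 - Dec.Q h ^ n) ^ M) u) ((n * (4 * h)) ^ M * C) := by
  induction M with
  | zero => intro u hu; rw [pow_zero, pow_zero, one_mul]; exact hu [] rfl
  | succ M ih =>
    intro u hu
    rw [pow_succ', pow_succ', mul_assoc]
    refine smP h0 n (((1 - Dec.Q h ^ n) ^ M) u) _ fun m => ?_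
    rw [show d m (((1 - Dec.Q h ^ n) ^ M) u) = ((1 - Dec.Q h ^ n) ^ M) (d m u) from
      LinearMap.congr_fun (cE (cdA m) h n M).eq u]
    exact ih _ fun β hβ => dl_snoc m β u ▸ hu _ (by simpa using hβ)

lemma B.ex (hu : B L u C) (hC : 0 ≤ C) (h : ℝ) (n M : ℕ) :
    B L (((1 - Dec.Q h ^ n) ^ M) u) (2 ^ M * C) ∧
      ∃ v, u - ((1 - Dec.Q h ^ n) ^ M) u = (Dec.Q h ^ n) v ∧ B L v (2 ^ M * C) := by
  induction M with
  | zero => exact ⟨by simpa using hu, 0, by simp, fun Λ _ y => by simpa using hC⟩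
  | succ M ih =>
    obtain ⟨h1, v, h2, h3⟩ := ih
    rw [pow_succ', pow_succ', mul_assoc, two_mul, Module.End.mul_apply]
    refine ⟨h1.sub (h1.P h n), _, ?_, h3.add h1⟩
    rw [map_add, ← h2, LinearMap.sub_apply, Module.End.one_apply]
    abel

lemma B.dE (hu : B L u C) (hC : 0 ≤ C) (h0 : 0 < h) (hc : 2 / h ≤ c) (M : ℕ) {n : ℕ}
    {α : List Ix} (hα : α.length ≤ n) :
    B L (dl α (u - ((1 - Dec.Q h ^ n) ^ M) u)) (2 ^ M * C * c ^ α.length) := by
  obtain ⟨-, v, h2, h3⟩ := hu.ex hC h n M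
  rw [h2, mul_comm]
  exact (h3.dP h0 α n hα).mono (by gcongr)

lemma spE (h0 : 0 ≤ h) (n M : ℕ) : Sp K ((1 - Q h ^ n) ^ M) (M * (n * (4 * h))) := by
  have h1 : Sp K (Q h) (4 * h) := by
    rw [show 4 * h = h + (h + (h + h)) by ring]
    exact (Sp.A 0 h0).mul ((Sp.A 1 h0).mul ((Sp.A 2 h0).mul (Sp.A 3 h0)))
  exact ((Sp.one.mono (h1.pow n).1).sub (h1.pow n)).pow M

theorem main (L : Set (Sch →L[ℂ] ℂ)) (f : Sch) (ε : ℝ) (k : ℕ) (hε : 0 < ε)
    (hf : HasCompactSupport f) (hb : ∀ β, ∃ C, B L (dl β f) C) : ∃ C : ℝ, 1 ≤ C ∧ ∀ n : ℕ,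
    ∃ g : ℕ → Sch, (∀ j, HasCompactSupport (g j) ∧
      tsupport (g j) ⊆ cthickening ε (tsupport f) ∧ ∀ α : List Ix, α.length ≤ n →
        B L (dl α (g j)) (C * (1 / 2) ^ (j * (k + 1)) * (C * 2 ^ j * ((n : ℝ) + 1)) ^ α.length)) ∧
      ∀ δ : ℝ, 0 < δ → ∃ J, B L (f - ∑ j ∈ Finset.range J, g j) δ := by
  choose c hc using hb
  obtain ⟨C1, hC1⟩ := ((List.finite_length_le Ix (k + 1)).image c).bddAbove
  set M := k + 1 with hM
  set C0 := max C1 0
  have p0 : 0 ≤ C0 := le_max_right _ _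
  have hC : ∀ β : List Ix, β.length ≤ M → B L (dl β f) C0 := fun β hβ =>
    (hc β).mono ((hC1 (mem_image_of_mem c hβ)).trans (le_max_left _ _))
  set a := ε / M with ha
  have a0 : 0 < a := by positivity
  set C := 1 + 8 / a + 2 ^ M * C0 + 2 * (2 ^ M * ((2 * a) ^ M * C0)) with hCC
  have q1 : 0 ≤ 8 / a := by positivity
  have q2 : 0 ≤ 2 ^ M * C0 := by positivity
  have q3 : 0 ≤ 2 ^ M * ((2 * a) ^ M * C0) := by positivity
  refine ⟨C, by linarith, fun n => ?_⟩
  set h : ℕ → ℝ := fun j => a * (1 / 2) ^ j / (4 * (n + 1)) with hh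
  have h0 : ∀ j, 0 < h j := fun j => by positivity
  have h1 : ∀ j, n * (4 * h j) ≤ a * (1 / 2) ^ j := fun j => by
    have : (n + 1) * (4 * h j) = a * (1 / 2) ^ j := by simp only [hh]; field_simp
    nlinarith [h0 j]
  have h2 : ∀ i j, i ≤ j → 2 / h i ≤ C * 2 ^ j * (n + 1) := fun i j hij => by
    have : 2 / h i = 8 / a * 2 ^ i * (n + 1) := by
      simp only [hh, one_div, inv_pow]; field_simp; norm_num
    rw [this]
    gcongr
    · linarith
    · norm_num
  set E : ℕ → Module.End ℂ Sch := fun j => (1 - Q (h j) ^ n) ^ M with hE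
  have hB : ∀ j, B L (E j f) ((a * (1 / 2) ^ j) ^ M * C0) := fun j =>
    (B.E (h0 j).le n M f fun β hβ => hC β hβ.le).mono (by
      have := h0 j
      gcongr ?_ ^ M * C0
      exact h1 j)
  set r : ℕ → Sch := fun j => Nat.casesOn j f fun i => E i f with hr
  have hs : ∀ j, Function.support (r j) ⊆ cthickening ε (tsupport f) := by
    have s0 : Function.support f ⊆ cthickening 0 (tsupport f) :=
      (subset_tsupport f).trans (self_subset_cthickening _)
    rintro (_ | j)
    · exact s0.trans (cthickening_mono hε.le _)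
    refine ((spE (h0 j).le n M).2 f 0 le_rfl s0).trans (cthickening_mono ?_ _)
    have e : M * a = ε := mul_div_cancel₀ _ (by positivity)
    have : a * (1 / 2) ^ j ≤ a := mul_le_of_le_one_right a0.le (pow_le_one₀ (by norm_num) (by norm_num))
    rw [add_zero, ← e]
    exact mul_le_mul_of_nonneg_left ((h1 j).trans this) (Nat.cast_nonneg M)
  refine ⟨fun j => r j - r (j + 1), fun j => ?_, fun δ hδ => ?_⟩
  · have ht : tsupport (r j - r (j + 1) : Sch) ⊆ cthickening ε (tsupport f) :=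
      closure_minimal ((Function.support_sub (r j) (r (j + 1))).trans
        (union_subset (hs j) (hs (j + 1)))) isClosed_cthickening
    refine ⟨(IsCompact.cthickening hf).of_isClosed_subset (isClosed_tsupport _) ht, ht,
      fun α hα => ?_⟩
    have k0 : 0 ≤ (C * 2 ^ j * ((n : ℝ) + 1)) ^ α.length := by positivity
    rcases j with _ | j
    · refine ((hC [] (Nat.zero_le _)).dE p0 (h0 0) (h2 0 0 le_rfl) M hα).mono ?_
      rw [zero_mul, pow_zero (1 / 2 : ℝ), mul_one]
      exact mul_le_mul_of_nonneg_right (by linarith) k0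
    have e : r (j + 1) - r (j + 1 + 1) =
        (E j f - E (j + 1) (E j f)) - (E (j + 1) f - E j (E (j + 1) f)) := by
      rw [show E (j + 1) (E j f) = E j (E (j + 1) f) from
        LinearMap.congr_fun (cE (fun v => (cE (cAA v) _ n M).symm) _ n M).eq f]
      simp only [hr]
      abel
    beta_reduce
    rw [e, dl_sub]
    have h3 : B L (E (j + 1) f) ((a * (1 / 2) ^ j) ^ M * C0) := (hB _).mono (by
      gcongr ?_ ^ M * C0
      rw [pow_succ]
      have : 0 < a * (1 / 2) ^ j := by positivity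
      linarith)
    refine (((hB j).dE (by positivity) (h0 _) (h2 _ _ le_rfl) M hα).sub
      (h3.dE (by positivity) (h0 _) (h2 _ _ j.le_succ) M hα)).mono ?_
    rw [← add_mul]
    refine mul_le_mul_of_nonneg_right ?_ k0
    have e2 : (a * (1 / 2) ^ j) ^ M = (2 * a) ^ M * (1 / 2) ^ ((j + 1) * M) := by
      rw [pow_mul, ← mul_pow]; congr 1; ring
    rw [e2]
    have : (0 : ℝ) < (1 / 2) ^ ((j + 1) * M) := by positivity
    nlinarith
  · obtain ⟨j, hj⟩ := exists_pow_lt_of_lt_one (show 0 < δ / (a ^ M * C0 + 1) by positivity)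
      (show (1 / 2 : ℝ) < 1 by norm_num)
    refine ⟨j + 1, ?_⟩
    rw [Finset.sum_range_sub', show r 0 = f from rfl, sub_sub_cancel]
    refine (hB j).mono ?_
    rw [lt_div_iff₀ (by positivity)] at hj
    have h4 : ((1 / 2 : ℝ) ^ j) ^ M ≤ (1 / 2) ^ j :=
      pow_le_of_le_one (by positivity) (pow_le_one₀ (by norm_num) (by norm_num)) k.succ_ne_zero
    have h5 : 0 ≤ a ^ M * C0 := by positivity
    have h6 : (0 : ℝ) < (1 / 2) ^ j := by positivity
    rw [mul_pow]
    nlinarith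

end

end Vale.Agent.P352X.EB.Dec
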