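import Vale.Agent.P352X.ST.Syn
import Vale.Agent.P352.GFDefs

/-!
# P352X, row EB.dec: averages along segments
-/

set_option linter.all false

open MeasureTheory Filter Topology Metric Set
open scoped SchwartzMap

namespace Vale.Agent.P352X.EB.Dec

open Vale.Agent.P352.GF ST LineDeriv

noncomputable section

/-- Lebesgue measure on the unit interval -/
abbrev ν : Measure ℝ := volume.restrict (Ioc 0 1)

lemma si (v : V) (g : Sch) : SInt (fun t : ℝ => tsl (t • v) g) ν := by
  have hc : Continuous fun t : ℝ => tsl (t • v) g :=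
    continuous_tsl.comp ((continuous_id.smul continuous_const).prodMk continuous_const)
  exact SInt.of_continuous hc fun k n => ⟨_, (((schwartz_withSeminorms ℝ V ℂ).continuous_seminorm
    (k, n)).comp hc).integrableOn_Ioc, fun _ => le_rfl⟩

/-- the average along the segment from `0` to `v` -/
def A (v : V) : Module.End ℂ Sch where
  toFun g := (si v g).int
  map_add' g g' := SchwartzMap.ext fun z => integral_add ((si v g).apply z) ((si v g').apply z)
  map_smul' c g := SchwartzMap.ext fun z => integral_smul c fun t : ℝ => g (z - t • v)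

lemma A_apply (v : V) (g : Sch) (z : V) : A v g z = ∫ t, g (z - t • v) ∂ν := rfl

/-- partial derivatives -/
def d (m : Ix) : Module.End ℂ Sch := (lineDerivOpCLM ℂ Sch (bas m 1) : Sch →L[ℂ] Sch)

lemma d_apply (m : Ix) (g : Sch) (z : V) : d m g z = fderiv ℝ g z (bas m 1) := rfl

lemma cdA (m : Ix) (v : V) : Commute (d m) (A v) := by
  refine LinearMap.ext fun g => SchwartzMap.ext fun z => ?_
  refine (((si v g).map (lineDerivOpCLM ℝ Sch (bas m 1))).2 (A v g) (fun _ => rfl) z).trans ?_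
  refine integral_congr_ae (Eventually.of_forall fun t => ?_)
  show fderiv ℝ (fun z => g (z - t • v)) z _ = fderiv ℝ g (z - t • v) _
  rw [fderiv_comp_sub]

lemma cAA (v w : V) : Commute (A v) (A w) := by
  refine LinearMap.ext fun g => SchwartzMap.ext fun z => ?_
  show ∫ t, ∫ s, g (z - t • v - s • w) ∂ν ∂ν = ∫ s, ∫ t, g (z - s • w - t • v) ∂ν ∂ν
  simp only [sub_right_comm z (_ • w)]
  refine integral_integral_swap (Integrable.of_bound ?_ _
    (Eventually.of_forall fun p => g.norm_le_seminorm ℝ _))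
  exact (g.continuous.comp (by fun_prop)).aestronglyMeasurable

lemma ftc (m : Ix) (h : ℝ) (g : Sch) :
    g - tsl (h • bas m 1) g = (h : ℂ) • A (h • bas m 1) (d m g) := by
  refine SchwartzMap.ext fun z => ?_
  have hd : ∀ t : ℝ, HasDerivAt (fun t : ℝ => -g (z - t • h • bas m 1))
      ((h : ℂ) * d m g (z - t • h • bas m 1)) t := fun t => by
    have h1 : HasDerivAt (fun t : ℝ => z - t • h • bas m 1) (-(h • bas m 1)) t := by
      simpa using ((hasDerivAt_id t).smul_const (h • bas m 1)).const_sub z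
    have := (g.differentiableAt.hasFDerivAt.comp_hasDerivAt t h1).neg
    rw [map_neg, neg_neg, map_smul, Complex.real_smul] at this
    exact this
  have := intervalIntegral.integral_eq_sub_of_hasDerivAt (a := 0) (b := 1) (fun t _ => hd t)
    ((continuous_const.mul ((d m g).continuous.comp (by fun_prop))).intervalIntegrable _ _)
  rw [intervalIntegral.integral_of_le zero_le_one, integral_const_mul] at this
  show g z - g (z - h • bas m 1) = (h : ℂ) * ∫ t, d m g (z - t • h • bas m 1) ∂ν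
  rw [this, one_smul, zero_smul, sub_zero]
  ring

variable (L : Set (Sch →L[ℂ] ℂ))

/-- bounds on all translates -/
def B (g : Sch) (C : ℝ) : Prop := ∀ Λ ∈ L, ∀ y, ‖Λ (tsl y g)‖ ≤ C

variable {L} {u w : Sch} {C C' : ℝ}

lemma B.mono (h : B L u C) (hC : C ≤ C') : B L u C' := fun Λ hΛ y => (h Λ hΛ y).trans hC

lemma B.add (h : B L u C) (h' : B L w C') : B L (u + w) (C + C') := fun Λ hΛ y => by
  rw [map_add, map_add]
  exact norm_add_le_of_le (h Λ hΛ y) (h' Λ hΛ y)

lemma B.sub (h : B L u C) (h' : B L w C') : B L (u - w) (C + C') := fun Λ hΛ y => by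
  rw [map_sub, map_sub]
  exact norm_sub_le_of_le (h Λ hΛ y) (h' Λ hΛ y)

lemma B.smul (h : B L u C) {r : ℝ} (hr : 0 ≤ r) : B L ((r : ℂ) • u) (r * C) := fun Λ hΛ y => by
  rw [map_smul, map_smul, norm_smul, Complex.norm_real, Real.norm_of_nonneg hr]
  exact mul_le_mul_of_nonneg_left (h Λ hΛ y) hr

lemma B.tsl (h : B L u C) (x : V) : B L (tsl x u) C := fun Λ hΛ y => by
  have : ST.tsl y (ST.tsl x u) = ST.tsl (y + x) u :=
    SchwartzMap.ext fun z => congrArg u (sub_sub _ _ _)
  rw [this]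
  exact h Λ hΛ _

lemma nu_le {F : ℝ → ℂ} (h : ∀ t ∈ Ioc (0 : ℝ) 1, ‖F t‖ ≤ C) : ‖∫ t, F t ∂ν‖ ≤ C := by
  simpa using norm_integral_le_of_norm_le_const (μ := ν)
    ((ae_restrict_mem measurableSet_Ioc).mono h)

lemma B.A (h : B L u C) (v : V) : B L (A v u) C := fun Λ hΛ y =>
  (congrArg _ ((si v u).clm (g := Dec.A v u) (fun _ => rfl) (Λ ∘L ST.tsl y)).2).trans_le
    (nu_le fun t _ => h.tsl _ Λ hΛ y)

lemma B.dA (hu : B L u C) (m : Ix) {h : ℝ} (h0 : 0 < h) :
    B L (d m (Dec.A (h • bas m 1) u)) (2 / h * C) := by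
  have e : d m (Dec.A (h • bas m 1) u) = ((h⁻¹ : ℝ) : ℂ) • (u - ST.tsl (h • bas m 1) u) := by
    rw [ftc, smul_smul, ← Complex.ofReal_mul, inv_mul_cancel₀ h0.ne', Complex.ofReal_one, one_smul]
    exact LinearMap.congr_fun (cdA m _).eq u
  rw [e]
  exact ((hu.sub (hu.tsl _)).smul (inv_pos.2 h0).le).mono (le_of_eq (by ring))

lemma B.sA {m : Ix} (hu : B L (d m u) C) {h : ℝ} (h0 : 0 ≤ h) :
    B L (u - Dec.A (h • bas m 1) u) (h * C) := fun Λ hΛ y => by
  obtain ⟨h1, h2⟩ := (si (h • bas m 1) u).clm (g := Dec.A (h • bas m 1) u) (fun _ => rfl)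
    (Λ ∘L ST.tsl y)
  have e : (Λ ∘L ST.tsl y) (u - Dec.A (h • bas m 1) u) =
      ∫ t, (Λ ∘L ST.tsl y) (u - ST.tsl (t • h • bas m 1) u) ∂ν := by
    simp only [map_sub (Λ ∘L ST.tsl y)]
    rw [integral_sub (integrable_const _) h1, h2]
    simp
  refine (congrArg _ e).trans_le (nu_le fun t ht => ?_)
  rw [smul_smul, ftc]
  refine (((hu.A _).smul (mul_nonneg ht.1.le h0)) Λ hΛ y).trans ?_
  exact mul_le_mul_of_nonneg_right (mul_le_of_le_one_left h0 ht.2)
    ((norm_nonneg _).trans (hu Λ hΛ y))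

/-- growth of supports -/
def Sp (K : Set V) (T : Module.End ℂ Sch) (r : ℝ) : Prop := 0 ≤ r ∧ ∀ (u : Sch) (s : ℝ), 0 ≤ s →
  Function.support u ⊆ cthickening s K → Function.support (T u) ⊆ cthickening (r + s) K

variable {K : Set V} {T T' : Module.End ℂ Sch} {r r' : ℝ}

lemma Sp.A (m : Ix) {h : ℝ} (h0 : 0 ≤ h) : Sp K (A (h • bas m 1)) h := by
  refine ⟨h0, fun u s hs hu z hz => ?_⟩
  by_contra hn
  refine hz (norm_le_zero_iff.1 (nu_le fun t ht => norm_le_zero_iff.2 ?_))
  by_contra h1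
  refine hn (cthickening_cthickening_subset h0 hs K
    (mem_cthickening_of_dist_le _ _ _ _ (hu h1) ?_))
  rw [dist_eq_norm, sub_sub_cancel, smul_smul, norm_smul,
    Real.norm_of_nonneg (mul_nonneg ht.1.le h0)]
  refine (mul_le_of_le_one_right (mul_nonneg ht.1.le h0) ?_).trans (mul_le_of_le_one_left h0 ht.2)
  refine (pi_norm_le_iff_of_nonneg zero_le_one).2 fun n => ?_
  unfold bas
  split_ifs <;> simp

lemma Sp.mono (h : Sp K T r) (hr : r ≤ r') : Sp K T r' :=
  ⟨h.1.trans hr, fun u s hs hu => (h.2 u s hs hu).trans (cthickening_mono (by linarith) K)⟩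

lemma Sp.one : Sp K 1 0 := ⟨le_rfl, fun u s _ hu => by rw [zero_add]; exact hu⟩

lemma Sp.mul (h : Sp K T r) (h' : Sp K T' r') : Sp K (T * T') (r + r') :=
  ⟨add_nonneg h.1 h'.1, fun u s hs hu => by
    rw [add_assoc]; exact h.2 _ _ (add_nonneg h'.1 hs) (h'.2 u s hs hu)⟩

lemma Sp.sub (h : Sp K T r) (h' : Sp K T' r) : Sp K (T - T') r :=
  ⟨h.1, fun u s hs hu => (Function.support_sub (T u) (T' u)).trans
    (union_subset (h.2 u s hs hu) (h'.2 u s hs hu))⟩

lemma Sp.pow (h : Sp K T r) (n : ℕ) : Sp K (T ^ n) (n * r) := by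
  induction n with
  | zero => simpa using Sp.one
  | succ n ih => rw [pow_succ, Nat.cast_succ, add_mul, one_mul]; exact ih.mul h

end

end Vale.Agent.P352X.EB.Dec
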